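import Vale.Agent.P272.K.LIN.Patch1

/-! P290Z (K): transfer of `C^{2,α}` bounds between `X` and a chart; cut off translations -/

open scoped NNReal Topology ContDiff
open Filter Set Metric

noncomputable section

set_option linter.unusedSectionVars false
set_option maxSynthPendingDepth 3

namespace Vale.Agent.P290Z.Kur.PullC2

open Vale.Agent.P272.K.LIN

variable {E : Type} [NormedAddCommGroup E] [NormedSpace ℝ E] [FiniteDimensional ℝ E] {X : Type}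
  [TopologicalSpace X] [ChartedSpace E X] [CompactSpace X] [T2Space X] [RSm E X] {α : ℝ}

/-- from a chart to `X` -/
theorem ext_c2 (𝒞 : Cov E X) (h0 : 0 < α) (h1 : α ≤ 1) {e : OpenPartialHomeomorph X E}
    (he : e ∈ atlas E X) {K : Set E} (hK : IsCompact K) (hKt : K ⊆ e.target) {β : E → ℝ}
    (hβ : ContDiff ℝ ∞ β) (hβK : ∀ y, y ∉ K → β y = 0) :
    ∃ C, 0 ≤ C ∧ ∀ v : E → ℝ, ContDiff ℝ 2 v → ∀ M, HB α (jet v) M M →
      ∃ u : 𝒞.C2 α, (∀ x, 𝒞.fn u x = ext0 e (fun y => β y * v y) x) ∧ ‖u‖ ≤ C * M := by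
  obtain ⟨C₂, hC₂, hT2⟩ := 𝒞.transfer2 (V := ℝ) h0 h1 he hK hKt
  obtain ⟨C₃, hC₃, hT3⟩ := 𝒞.transfer2 (V := Jet E) h0 h1 he hK hKt
  obtain ⟨A₂, B₂, hA₂, hB₂, hβHB⟩ := hb_of_K h0 h1 (hβ.of_le one_le_inf) hK hβK
  have hcoef : ∀ i', ∃ A B, 0 ≤ A ∧ 0 ≤ B ∧ HB α (𝒞.coef e β i') A B := fun i' =>
    hb_of_K h0 h1 ((𝒞.coef_contDiff he hβ hK hKt hβK i').of_le one_le_inf) hK
      (fun y hy => 𝒞.coef_eq_zero hK.isClosed hβK i' hy)
  choose Ac Bc hAc hBc hcHB using hcoef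
  obtain ⟨Cc, hCc, hCc'⟩ := Cov.exists_le_all fun i' => Ac i' + C₃ * (Ac i' + (Ac i' + Bc i'))
  have hD : 0 ≤ A₂ + C₂ * (A₂ + (A₂ + B₂)) := by positivity
  refine ⟨A₂ + C₂ * (A₂ + (A₂ + B₂)) + Cc, by positivity, fun v hv M hj => ?_⟩
  have hM0 : 0 ≤ M := hj.sup_nonneg
  have hv1 : HB α v M M := ⟨fun y => (norm_fst_le (jet v y)).trans (hj.sup y), fun y y' =>
    (norm_fst_le (jet v y - jet v y')).trans (hj.hol y y')⟩
  have hz : ∀ y, y ∉ K → β y * v y = 0 := fun y hy => by rw [hβK y hy, zero_mul]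
  have hck : CkFn E 2 (ext0 e fun y => β y * v y) :=
    ext0_ck two_le_inf he hK hKt hz fun y _ => (hβ.contDiffAt.of_le two_le_inf).mul hv.contDiffAt
  have hJeq := 𝒞.Jf_ext0 he hβ hK hKt hβK hv
  have hJb := fun i' => hT3 _ _ _ (mul_nonneg (hAc i') hM0)
    (add_nonneg (mul_nonneg (hAc i') hM0) (mul_nonneg (hBc i') hM0))
    (fun y hy => by rw [𝒞.coef_eq_zero hK.isClosed hβK i' hy, _root_.zero_apply])
    (hb_apply (hAc i') (hBc i') (hcHB i') hj)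
  have hIb := hT2 (fun y => β y * v y) (A₂ * M) (A₂ * M + B₂ * M) (by positivity)
    (by positivity) hz (hb_mul hβHB hA₂ hB₂ hv1)
  refine ⟨𝒞.mkC2 h0 h1 _ hck fun i' => ⟨_, fun x y => by
    rw [hJeq, hJeq]
    exact (hJb i').2 x y⟩, fun x => rfl, 𝒞.norm_C2_le (by positivity) ?_ fun i' => ?_⟩
  · refine (Hol.norm_le_of (by positivity) (by positivity) hIb.1 hIb.2).trans ?_
    nlinarith [mul_nonneg hCc hM0]
  · have h1 := hAc i'
    have h2 := hBc i'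
    refine (Hol.norm_le_of (A := Ac i' * M) (B := C₃ * (Ac i' * M + (Ac i' * M + Bc i' * M)))
      (by positivity) (by positivity) (fun x => ?_) fun x y => ?_).trans ?_
    · rw [Cov.J_apply, Cov.fn_mkC2, hJeq]
      exact (hJb i').1 x
    · rw [Cov.J_apply, Cov.J_apply, Cov.fn_mkC2, hJeq, hJeq]
      exact (hJb i').2 x y
    · nlinarith [mul_le_mul_of_nonneg_right (hCc' i') hM0, mul_nonneg hD hM0]

/-- from `X` to a chart -/
theorem cut_c2 (𝒞 : Cov E X) (h0 : 0 < α) (h1 : α ≤ 1) (i : Fin 𝒞.N) {K : Set E}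
    (hK : IsCompact K) (hKt : K ⊆ ball (𝒞.c i) (2 * 𝒞.r i)) {κ : E → ℝ} (hκ : ContDiff ℝ ∞ κ)
    (hκK : ∀ y, y ∉ K → κ y = 0) : ∃ C, 0 ≤ C ∧ ∀ v : 𝒞.C2 α,
      ContDiff ℝ 2 (fun y => κ y * 𝒞.fn v ((𝒞.e i).symm y)) ∧
      HB α (jet fun y => κ y * 𝒞.fn v ((𝒞.e i).symm y)) (C * ‖v‖) (C * ‖v‖) := by
  have hr := 𝒞.r_pos i
  have hKt' : K ⊆ (𝒞.e i).target := hKt.trans (𝒞.sub' (by linarith))
  have hj0 : ∀ y, y ∉ K → JM (jet κ y) = 0 := fun y hy => by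
    rw [Cov.jet_eq_zero hK.isClosed hκK hy, Cov.JM_zero]
  have hj1 : ContDiff ℝ 1 (jet κ) := contDiff_iff_contDiffAt.2 fun y =>
    contDiffAt_jet (hκ.contDiffAt.of_le (WithTop.coe_le_coe.2 le_top))
  have hj2 := ((contDiff_JM (E := E)).of_le one_le_inf).fun_comp hj1
  obtain ⟨A, B, -, -, hb⟩ := hb_of_K h0 h1 hj2 hK hj0
  obtain ⟨C, hC, hT⟩ := 𝒞.transfer1 h0 h1 (𝒞.mem i) hK hKt' hj0 hb
  refine ⟨C, hC, fun v => ⟨contDiff_iff_contDiffAt.2 fun y => ?_, ?_⟩⟩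
  · by_cases hy : y ∈ K
    · exact (hκ.contDiffAt.of_le two_le_inf).mul ((𝒞.fn_ck v).at_target (𝒞.mem i) (hKt' hy))
    · refine (contDiffAt_const (c := (0 : ℝ))).congr_of_eventuallyEq ?_
      filter_upwards [hK.isClosed.isOpen_compl.mem_nhds hy] with z hz
      rw [hκK z hz, zero_mul]
  · have h2 : (jet fun y => κ y * 𝒞.fn v ((𝒞.e i).symm y)) =
        fun y => JM (jet κ y) (𝒞.J α i v ((𝒞.e i).symm y)) := funext fun y => by
      by_cases hy : y ∈ K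
      · rw [jet_mul (hκ.contDiffAt.of_le two_le_inf) ((𝒞.fn_ck v).at_target (𝒞.mem i) (hKt' hy)),
          Cov.J_apply, 𝒞.Jf_symm (hKt hy)]
      · rw [hj0 y hy, Cov.jet_eq_zero hK.isClosed (fun z hz => by rw [hκK z hz, zero_mul]) hy]
        rfl
    rw [h2]
    exact (hT _).mono'
      (mul_le_mul_of_nonneg_left ((Hol.N0_le_norm _).trans (𝒞.norm_J_le i v)) hC)
      (mul_le_mul_of_nonneg_left (𝒞.norm_J_le i v) hC)

theorem hb_slice {V : Type} [NormedAddCommGroup V] [NormedSpace ℝ V] (h0 : 0 < α) (h1 : α ≤ 1)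
    {c : E × E → V} (hc : ContDiff ℝ ∞ c) {K : Set E} (hK : IsCompact K) :
    ∃ A B, 0 ≤ A ∧ 0 ≤ B ∧ ∀ s : E, ‖s‖ ≤ 1 → ∃ b : E → ℝ, (∀ y ∈ K, b y = 1) ∧
      HB α (fun y => b y • c (s, y)) A B := by
  obtain ⟨R, hR, hKR⟩ := hK.isBounded.subset_closedBall_lt 1 0
  let β : ContDiffBump (0 : E × E) := ⟨R, R + 1, by linarith, by linarith⟩
  obtain ⟨A, B, hA, hB, hb⟩ := hb_of_compact h0 h1 (c := fun p => β p • c p)
    ((β.contDiff.smul hc).of_le one_le_inf) β.hasCompactSupport.smul_right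
  refine ⟨A, B, hA, hB, fun s hs => ⟨fun y => β (s, y), fun y hy => β.one_of_mem_closedBall ?_,
    fun y => hb.sup (s, y), fun y y' => by simpa using hb.hol (s, y) (s, y')⟩⟩
  rw [mem_closedBall_zero_iff, Prod.norm_def]
  exact max_le (hs.trans hR.le) (mem_closedBall_zero_iff.1 (hKR hy))

/-- composition with the cut off translations -/
theorem comp_th (h0 : 0 < α) (h1 : α ≤ 1) {χ : E → ℝ} (hχ : ContDiff ℝ ∞ χ) {K : Set E}
    (hK : IsCompact K) (hχK : ∀ y, y ∉ K → χ y = 0) : ∃ C, 0 ≤ C ∧ ∀ s : E, ‖s‖ ≤ 1 →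
      ∀ V : E → ℝ, ContDiff ℝ 2 V → (∀ y, y ∉ K → V y = 0) → ∀ M, HB α (jet V) M M →
        ContDiff ℝ 2 (fun y => V (y + χ y • s)) ∧
        HB α (jet fun y => V (y + χ y • s)) (C * M) (C * M) := by
  have d1 : ContDiff ℝ ∞ fun p : E × E => fderiv ℝ (fun y => y + χ y • p.1) p.2 :=
    ContDiff.fderiv (f := fun (p : E × E) y => y + χ y • p.1) (m := ∞)
      (by unfold Function.uncurry; fun_prop) contDiff_snd (by simp)
  have d2 : ContDiff ℝ ∞ fun p : E × E => fderiv ℝ (fderiv ℝ fun y => y + χ y • p.1) p.2 :=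
    ContDiff.fderiv (f := fun (p : E × E) => fderiv ℝ fun y => y + χ y • p.1) (m := ∞)
      (d1.comp₂ (f₁ := fun q : (E × E) × E => q.1.1) (f₂ := fun q => q.2) (by fun_prop)
        contDiff_snd) contDiff_snd (by simp)
  obtain ⟨A, B, hA, hB, hb⟩ := hb_slice h0 h1 ((contDiff_JT (E := E) (F := E)).comp₂ d1 d2) hK
  obtain ⟨L, hL⟩ := (hχ.of_le one_le_inf).lipschitzWith_of_hasCompactSupport
    (HasCompactSupport.intro hK hχK) (by simp)
  have hLα : 0 ≤ (1 + (L : ℝ)) ^ α := by positivity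
  refine ⟨A + A * (1 + L) ^ α + B, by positivity, fun s hs V hV hVK M hM => ?_⟩
  have hθ : ContDiff ℝ 2 fun y => y + χ y • s :=
    contDiff_id.add ((hχ.of_le two_le_inf).smul contDiff_const)
  refine ⟨hV.fun_comp hθ, ?_⟩
  have hM0 := hM.sup_nonneg
  have h2 : HB α (fun y => jet V (y + χ y • s)) M (M * (1 + L) ^ α) := by
    refine ⟨fun y => hM.sup _, fun y y' => (hM.hol _ _).trans ?_⟩
    rw [mul_assoc, ← Real.mul_rpow (by positivity) (norm_nonneg _)]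
    refine mul_le_mul_of_nonneg_left (Real.rpow_le_rpow (norm_nonneg _) ?_ h0.le) hM0
    rw [add_sub_add_comm, ← sub_smul, add_mul, one_mul]
    refine (norm_add_le _ _).trans (add_le_add le_rfl ?_)
    rw [norm_smul]
    exact (mul_le_of_le_one_right (norm_nonneg _) hs).trans (hL.norm_sub_le y y')
  obtain ⟨b, hb1, h3⟩ := hb s hs
  have h4 : (jet fun y => V (y + χ y • s)) = fun y => (b y •
      JT (fderiv ℝ (fun y => y + χ y • s) y) (fderiv ℝ (fderiv ℝ fun y => y + χ y • s) y))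
        (jet V (y + χ y • s)) := funext fun y => by
    rw [jet_comp hV.contDiffAt hθ.contDiffAt]
    by_cases hy : y ∈ K
    · rw [hb1 y hy, one_smul]
    · rw [hχK y hy, zero_smul, add_zero, Cov.jet_eq_zero hK.isClosed hVK hy, map_zero, map_zero]
  rw [h4]
  exact (hb_apply hA hB h3 h2).mono' (by nlinarith [mul_nonneg (mul_nonneg hA hLα) hM0])
    (by nlinarith [mul_nonneg hA hM0])

end Vale.Agent.P290Z.Kur.PullC2
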